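import Mathlib

/-!
Convex tables described by the radius of curvature as a function of the tangent angle.
-/

noncomputable section

namespace Vale.Agent.P097.Sym

open Real

/-- `rho` is the radius of curvature, as a function of the tangent angle, of a closed curve. -/
def IsTable (rho : ℝ → ℝ) : Prop :=
  Continuous rho ∧ (∀ x, 0 < rho x) ∧ Function.Periodic rho (2 * π) ∧
    ∫ u in (0:ℝ)..(2 * π), (rho u : ℂ) * Complex.exp ((u : ℂ) * Complex.I) = 0

/-- The boundary point whose counterclockwise tangent has angle `x`. -/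
def curve (rho : ℝ → ℝ) (x : ℝ) : ℂ :=
  ∫ u in (0:ℝ)..x, (rho u : ℂ) * Complex.exp ((u : ℂ) * Complex.I)

/-- The ray leaving the point of tangent angle `x` at angle `d` meets the boundary next at the
point of tangent angle `y`. Then the outgoing angle there is `y - x - d`. -/
def Step (rho : ℝ → ℝ) (x d y : ℝ) : Prop :=
  x < y ∧ y < x + 2 * π ∧ ∃ l : ℝ, 0 < l ∧
    curve rho y - curve rho x = (l : ℂ) * Complex.exp (((x + d : ℝ) : ℂ) * Complex.I)

/-- A continuous family of invariant graphs, ordered by the parameter `t` in `(0,1)`, filling the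
collar `0 < d < eta` of phase space. -/
def GraphIntegrable (rho : ℝ → ℝ) (eta : ℝ) : Prop :=
  ∃ G : ℝ → ℝ → ℝ,
    ContinuousOn (fun p : ℝ × ℝ => G p.1 p.2) (Set.Ioo 0 1 ×ˢ Set.univ) ∧
    (∀ t ∈ Set.Ioo (0:ℝ) 1, ∀ x, G t x ∈ Set.Ioo 0 π ∧ G t (x + 2 * π) = G t x) ∧
    (∀ x, StrictMonoOn (fun t => G t x) (Set.Ioo 0 1)) ∧
    (∀ x d, 0 < d → d < eta → ∃ t ∈ Set.Ioo (0:ℝ) 1, G t x = d) ∧
    (∀ t ∈ Set.Ioo (0:ℝ) 1, ∀ x y, Step rho x (G t x) y → G t y = y - x - G t x)

end Vale.Agent.P097.Sym
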