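import Vale.Agent.P097.Sym.Leaves

/-!
A symmetric table that is integrable near the boundary is a disc.
-/

noncomputable section

namespace Vale.Agent.P097.Sym

open Real Set Filter Topology

theorem eq_self_of_iterate_eq {f : ℝ → ℝ} (hf : StrictMono f) {m : ℕ} {x : ℝ}
    (h : f^[m + 1] x = x) : f x = x := by
  rcases lt_trichotomy x (f x) with hlt | heq | hgt
  · have := (hf.strictMono_iterate_of_lt_map hlt) (Nat.succ_pos m)
    simp at this
    exact absurd (lt_of_lt_of_eq this h) (lt_irrefl _)
  · exact heq.symm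
  · have := (hf.strictAnti_iterate_of_map_lt hgt) (Nat.succ_pos m)
    simp at this
    exact absurd (lt_of_eq_of_lt h.symm this) (lt_irrefl _)

variable {rho : ℝ → ℝ} {eta : ℝ} {G : ℝ → ℝ → ℝ}

theorem Leaves.exists_leaf (L : Leaves rho eta G) {m : ℕ} (hk : π / (m + 1 : ℕ) < eta) (x : ℝ) :
    ∃ t ∈ Ioo (0:ℝ) 1, (leafMap rho G t)^[m + 1] x = x + 2 * π := by
  have hc : 0 < π / (m + 1 : ℕ) := by positivity
  have e : (2 * ((m : ℕ) + 1) : ℝ) * (π / (m + 1 : ℕ)) = 2 * π := by push_cast; field_simp
  obtain ⟨a, ha, hA⟩ := L.exists_low hc hk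
  obtain ⟨b, hb, hB⟩ := L.exists_high hc hk
  have h1 := L.iter_lt_of ha x hA m
  have h2 := L.iter_gt hb x (fun i => hB _) m
  rw [e] at h1 h2
  have hab : a < b := by
    by_contra hle
    exact absurd (((hB x).trans_le ((L.mono x).monotoneOn hb ha (not_lt.1 hle)))) (not_lt.2 (hA x).le)
  have hsub : Icc a b ⊆ Ioo (0:ℝ) 1 := fun t ht => ⟨ha.1.trans_le ht.1, ht.2.trans_lt hb.2⟩
  obtain ⟨t, ht, e'⟩ := intermediate_value_Icc hab.le ((L.continuousOn_iter (m + 1) x).mono hsub)
    (show x + 2 * π ∈ Icc _ _ from ⟨h1.le, h2.le⟩)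
  exact ⟨t, hsub ht, e'⟩

theorem Leaves.leaf_unique (L : Leaves rho eta G) {m : ℕ} {x s t : ℝ} (hs : s ∈ Ioo (0:ℝ) 1)
    (ht : t ∈ Ioo (0:ℝ) 1) (es : (leafMap rho G s)^[m + 1] x = x + 2 * π)
    (et : (leafMap rho G t)^[m + 1] x = x + 2 * π) : s = t := by
  rcases lt_trichotomy s t with h | h | h
  · linarith [L.iter_lt hs ht h x m]
  · exact h
  · linarith [L.iter_lt ht hs h x m]

theorem Leaves.iter_period (L : Leaves rho eta G) {m : ℕ} {x t : ℝ} (ht : t ∈ Ioo (0:ℝ) 1)
    (h : (leafMap rho G t)^[m + 1] x = x + 2 * π) (j : ℕ) :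
    (leafMap rho G t)^[j * (m + 1)] x = x + (j : ℝ) * (2 * π) := by
  induction j with
  | zero => simp
  | succ n ih =>
    rw [show (n + 1) * (m + 1) = n * (m + 1) + (m + 1) by ring, Function.iterate_add_apply, h,
      L.iter_add ht, ih]
    push_cast; ring

/-- The invariance under a symmetry of the leaves through the periodic orbits of winding one. -/
theorem Leaves.leaf_symm (L : Leaves rho eta G) {m : ℕ} (hk : π / (m + 1 : ℕ) < eta) {a x t : ℝ}
    (ha : Function.Periodic rho a) (ht : t ∈ Ioo (0:ℝ) 1)
    (h : (leafMap rho G t)^[m + 1] x = x + 2 * π) :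
    ∃ t' ∈ Ioo (0:ℝ) 1, (leafMap rho G t')^[m + 1] (x + a) = x + a + 2 * π ∧
      G t' (x + a) = G t x := by
  have e : (2 * ((m : ℕ) + 1) : ℝ) * (π / (m + 1 : ℕ)) = 2 * π := by push_cast; field_simp
  obtain ⟨j, hj⟩ : ∃ j : ℕ, G t ((leafMap rho G t)^[j] x) ≤ π / (m + 1 : ℕ) := by
    by_contra hc
    have := L.iter_gt ht x (fun i => not_le.1 (fun hle => hc ⟨i, hle⟩)) m
    rw [e, h] at this
    exact lt_irrefl _ this
  obtain ⟨t', ht', e'⟩ := L.cover ((leafMap rho G t)^[j] x + a) _
    (L.range t ht ((leafMap rho G t)^[j] x)).1.1 (hj.trans_lt hk)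
  have follow : ∀ i : ℕ,
      (leafMap rho G t')^[i] ((leafMap rho G t)^[j] x + a) = (leafMap rho G t)^[j + i] x + a ∧
      G t' ((leafMap rho G t)^[j + i] x + a) = G t ((leafMap rho G t)^[j + i] x) := by
    intro i
    induction i with
    | zero => exact ⟨rfl, e'⟩
    | succ n ih =>
      obtain ⟨i1, i2⟩ := ih
      have hstep : leafMap rho G t' ((leafMap rho G t)^[j + n] x + a) =
          leafMap rho G t ((leafMap rho G t)^[j + n] x) + a := by
        rw [leafMap, i2, next_add_symm L.table ha (L.range t ht _).1]; rfl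
      refine ⟨?_, ?_⟩
      · rw [Function.iterate_succ_apply', i1, hstep, ← add_assoc, Function.iterate_succ_apply']
      · rw [← add_assoc, Function.iterate_succ_apply', ← hstep, L.angle_next ht', hstep, i2,
          L.angle_next ht]
        ring
  refine ⟨t', ht', ?_⟩
  obtain ⟨f1, f2⟩ := follow (j * m)
  obtain ⟨g1, -⟩ := follow (m + 1 + j * m)
  rw [show j + j * m = j * (m + 1) by ring, L.iter_period ht h] at f1 f2
  rw [Function.iterate_add_apply, f1, show j + (m + 1 + j * m) = (j + 1) * (m + 1) by ring,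
    L.iter_period ht h] at g1
  rw [show x + (j : ℝ) * (2 * π) + a = x + a + (j : ℝ) * (2 * π) by ring] at f2 g1
  rw [L.angle_add_nat ht', L.angle_add_nat ht] at f2
  rw [L.iter_add_nat ht'] at g1
  push_cast at g1
  exact ⟨by linarith, f2⟩

theorem Leaves.angle_const (L : Leaves rho eta G) {m : ℕ} (hk : π / (m + 1 : ℕ) < eta)
    (ha : Function.Periodic rho (2 * π / (m + 1 : ℕ))) (x : ℝ) :
    π / (m + 1 : ℕ) ∈ Ioo 0 π ∧
      Step rho x (π / (m + 1 : ℕ)) (x + 2 * π / (m + 1 : ℕ)) := by
  choose T hT eT using fun y => L.exists_leaf hk y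
  set al := 2 * π / (m + 1 : ℕ) with hal
  have hal0 : 0 < al := by positivity
  have halk : ((m : ℝ) + 1) * al = 2 * π := by rw [hal]; push_cast; field_simp
  have huniq : ∀ {y s : ℝ}, s ∈ Ioo (0:ℝ) 1 → (leafMap rho G s)^[m + 1] y = y + 2 * π → T y = s :=
    fun hs es => L.leaf_unique (hT _) hs (eT _) es
  have hTc : Continuous T := by
    rw [continuous_iff_continuousAt]
    intro y
    rw [ContinuousAt, tendsto_order]
    constructor
    · intro u hu
      by_cases hu0 : u ≤ 0
      · exact Eventually.of_forall fun z => hu0.trans_lt (hT z).1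
      have hum : u ∈ Ioo (0:ℝ) 1 := ⟨not_le.1 hu0, hu.trans (hT y).2⟩
      have hlt := L.iter_lt hum (hT y) hu y m
      rw [eT y] at hlt
      have hopen : IsOpen {z | (leafMap rho G u)^[m + 1] z < z + 2 * π} :=
        isOpen_lt ((L.continuous_map hum).iterate _) (continuous_id.add continuous_const)
      filter_upwards [hopen.mem_nhds hlt] with z hz0
      have hz : (leafMap rho G u)^[m + 1] z < z + 2 * π := hz0
      by_contra hc
      rcases (not_lt.1 hc).lt_or_eq with h | h
      · linarith [L.iter_lt (hT z) hum h z m, eT z, hz]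
      · have := eT z; rw [h] at this; linarith [hz]
    · intro u hu
      by_cases hu1 : 1 ≤ u
      · exact Eventually.of_forall fun z => (hT z).2.trans_le hu1
      have hum : u ∈ Ioo (0:ℝ) 1 := ⟨(hT y).1.trans hu, not_le.1 hu1⟩
      have hlt := L.iter_lt (hT y) hum hu y m
      rw [eT y] at hlt
      have hopen : IsOpen {z | z + 2 * π < (leafMap rho G u)^[m + 1] z} :=
        isOpen_lt (continuous_id.add continuous_const) ((L.continuous_map hum).iterate _)
      filter_upwards [hopen.mem_nhds hlt] with z hz0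
      have hz : z + 2 * π < (leafMap rho G u)^[m + 1] z := hz0
      by_contra hc
      rcases (not_lt.1 hc).lt_or_eq with h | h
      · linarith [L.iter_lt hum (hT z) h z m, eT z, hz]
      · have := eT z; rw [← h] at this; linarith [hz]
  -- the map along the periodic points
  let B : ℝ → ℝ := fun y => leafMap rho G (T y) y
  have hTsym : ∀ y, G (T (y + al)) (y + al) = G (T y) y := by
    intro y
    obtain ⟨t', ht', e1, e2⟩ := L.leaf_symm hk ha (hT y) (eT y)
    rw [huniq ht' e1, e2]
  have hBsym : ∀ y, B (y + al) = B y + al := by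
    intro y
    show next rho (y + al) (G (T (y + al)) (y + al)) = next rho y (G (T y) y) + al
    rw [hTsym, next_add_symm L.table ha (L.range _ (hT y) y).1]
  have hTB : ∀ y, T (B y) = T y := by
    intro y
    refine huniq (hT y) ?_
    show (leafMap rho G (T y))^[m + 1] (leafMap rho G (T y) y) = leafMap rho G (T y) y + 2 * π
    rw [← Function.iterate_succ_apply, Function.iterate_succ_apply', eT y, L.map_add (hT y)]
  have hBc : Continuous B := by
    rw [continuous_iff_continuousAt]
    intro y
    exact ContinuousAt.comp (g := fun q : ℝ × ℝ => leafMap rho G q.1 q.2)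
      (f := fun z : ℝ => (T z, z)) (L.continuousAt_map (hT y) y)
      (hTc.continuousAt.prodMk continuousAt_id)
  have hBi : Function.Injective B := by
    intro y z e
    have et : T y = T z := by rw [← hTB y, e, hTB z]
    have e' : leafMap rho G (T y) y = leafMap rho G (T z) z := e
    rw [et] at e'
    exact L.injective_map (hT z) e'
  have hBm : StrictMono B := by
    rcases hBc.strictMono_of_inj hBi with h | h
    · exact h
    · have := h (show (0:ℝ) < 0 + al by linarith)
      rw [hBsym] at this
      linarith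
  have hBit : ∀ (i : ℕ) (y : ℝ), B^[i] y = (leafMap rho G (T y))^[i] y := by
    intro i
    induction i with
    | zero => simp
    | succ n ih =>
      intro y
      rw [Function.iterate_succ_apply, Function.iterate_succ_apply, ih (B y), hTB y]
  have hBsub : ∀ (i : ℕ) (y : ℝ), B (y - (i : ℝ) * al) = B y - (i : ℝ) * al := by
    intro i
    induction i with
    | zero => simp
    | succ n ih =>
      intro y
      have := hBsym (y - ((n + 1 : ℕ) : ℝ) * al)
      rw [show y - ((n + 1 : ℕ) : ℝ) * al + al = y - (n : ℝ) * al by push_cast; ring, ih] at this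
      push_cast at *
      linarith
  let H : ℝ → ℝ := fun y => B y - al
  have hHit : ∀ (i : ℕ) (y : ℝ), H^[i] y = B^[i] y - (i : ℝ) * al := by
    intro i y
    induction i with
    | zero => simp
    | succ n ih =>
      rw [Function.iterate_succ_apply', Function.iterate_succ_apply', ih]
      show B (B^[n] y - (n : ℝ) * al) - al = _
      rw [hBsub]
      push_cast; ring
  have hBid : ∀ y, B y = y + al := by
    intro y
    have hH : H^[m + 1] y = y := by
      rw [hHit, hBit, eT y]; push_cast; linarith
    have := eq_self_of_iterate_eq (f := H) (fun u v huv => sub_lt_sub_right (hBm huv) al) hH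
    show B y = y + al
    have h' : B y - al = y := this
    linarith
  have hd : G (T x) x = π / (m + 1 : ℕ) := by
    have h1 := L.angle_next (hT x) x
    have h2 : leafMap rho G (T x) x = x + al := hBid x
    have h3 := hTsym x
    have h4 : T (x + al) = T x := by rw [← hBid x, hTB x]
    rw [h2] at h1
    rw [h4, h1] at h3
    have h5 : al = 2 * (π / (m + 1 : ℕ)) := by rw [hal]; ring
    linarith
  refine ⟨hd ▸ (L.range _ (hT x) x).1, ?_⟩
  have := L.step (hT x) x
  rw [show leafMap rho G (T x) x = x + al from hBid x, hd] at this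
  exact this

theorem rho_const_of_step {b : ℝ} (h : IsTable rho) (hb : b ∈ Ioo 0 π)
    (ha : Function.Periodic rho (2 * b)) (hs : ∀ x, Step rho x b (x + 2 * b)) :
    ∀ x y, rho x = rho y := by
  have h0 : ∀ x, height rho (x + b) x (x + 2 * b) = 0 := fun x => ((step_iff h hb).1 (hs x)).2.2
  have dS : ∀ x, HasDerivAt (fun z => sinPart rho (z + 2 * b) - sinPart rho z)
      (rho x * (Real.sin (x + 2 * b) - Real.sin x)) x := fun x =>
    (((hasDerivAt_sinPart h.1 _).comp_add_const x (2 * b)).sub
      (hasDerivAt_sinPart h.1 x)).congr_deriv (by rw [ha x]; ring)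
  have dC : ∀ x, HasDerivAt (fun z => cosPart rho (z + 2 * b) - cosPart rho z)
      (rho x * (Real.cos (x + 2 * b) - Real.cos x)) x := fun x =>
    (((hasDerivAt_cosPart h.1 _).comp_add_const x (2 * b)).sub
      (hasDerivAt_cosPart h.1 x)).congr_deriv (by rw [ha x]; ring)
  have dc : ∀ x, HasDerivAt (fun z => Real.cos (z + b)) (-Real.sin (x + b)) x := fun x =>
    (Real.hasDerivAt_cos (x + b)).comp_add_const x b
  have ds : ∀ x, HasDerivAt (fun z => Real.sin (z + b)) (Real.cos (x + b)) x := fun x =>
    (Real.hasDerivAt_sin (x + b)).comp_add_const x b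
  have exp1 : ∀ x, Real.sin (x + 2 * b) =
      Real.sin (x + b) * Real.cos b + Real.cos (x + b) * Real.sin b := fun x => by
    rw [← Real.sin_add]; congr 1; ring
  have exp2 : ∀ x, Real.sin x =
      Real.sin (x + b) * Real.cos b - Real.cos (x + b) * Real.sin b := fun x => by
    rw [← Real.sin_sub]; congr 1; ring
  have exp3 : ∀ x, Real.cos (x + 2 * b) =
      Real.cos (x + b) * Real.cos b - Real.sin (x + b) * Real.sin b := fun x => by
    rw [← Real.cos_add]; congr 1; ring
  have exp4 : ∀ x, Real.cos x =
      Real.cos (x + b) * Real.cos b + Real.sin (x + b) * Real.sin b := fun x => by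
    rw [← Real.cos_sub]; congr 1; ring
  let M : ℝ → ℝ := fun z => Real.sin (z + b) * (sinPart rho (z + 2 * b) - sinPart rho z)
    + Real.cos (z + b) * (cosPart rho (z + 2 * b) - cosPart rho z)
  have hM : ∀ x, M x = 2 * Real.sin b * rho x := by
    intro x
    have d := ((dc x).mul (dS x)).sub ((ds x).mul (dC x))
    have hz : HasDerivAt (fun z => height rho (z + b) z (z + 2 * b)) 0 x := by
      simp only [h0]; exact hasDerivAt_const x 0
    have := d.unique hz
    rw [exp1 x, exp2 x, exp3 x, exp4 x] at this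
    show Real.sin (x + b) * _ + Real.cos (x + b) * _ = _
    linear_combination (-1 : ℝ) * this +
      (2 * Real.sin b * rho x) * Real.sin_sq_add_cos_sq (x + b)
  have hd : ∀ x, HasDerivAt M 0 x := by
    intro x
    refine (((ds x).mul (dS x)).add ((dc x).mul (dC x))).congr_deriv ?_
    have := h0 x
    simp only [height] at this
    rw [exp1 x, exp2 x, exp3 x, exp4 x]
    linear_combination this
  have hconst := is_const_of_deriv_eq_zero (f := M) (fun x => (hd x).differentiableAt)
    (fun x => (hd x).deriv)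
  intro x y
  have := hconst x y
  rw [hM, hM] at this
  have hsb := Real.sin_pos_of_pos_of_lt_pi hb.1 hb.2
  exact mul_left_cancel₀ (by positivity) this

theorem graphIntegrable_of_const (h : IsTable rho) (heta : eta ≤ π)
    (hc : ∀ x y, rho x = rho y) : GraphIntegrable rho eta := by
  have hp := Real.pi_pos
  refine ⟨fun t _ => π * t, by fun_prop, ?_, ?_, ?_, ?_⟩
  · intro t ht x
    exact ⟨⟨mul_pos hp ht.1, by nlinarith [ht.2]⟩, rfl⟩
  · intro x s _ t _ hst
    show π * s < π * t
    nlinarith
  · intro x d hd hde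
    exact ⟨d / π, ⟨div_pos hd hp, (div_lt_one hp).2 (by linarith)⟩, by field_simp⟩
  · intro t ht x y hy
    have hd : π * t ∈ Ioo 0 π := ⟨mul_pos hp ht.1, by nlinarith [ht.2]⟩
    have hrho : rho = fun _ => rho 0 := funext fun z => hc z 0
    have hy' : Step rho x (π * t) (x + 2 * (π * t)) := by
      refine (step_iff h hd).2 ⟨by linarith [hd.1], by linarith [hd.2], ?_⟩
      simp only [height, sinPart, cosPart, hc _ 0, intervalIntegral.integral_const_mul,
        integral_sin, integral_cos, Real.cos_zero, Real.sin_zero]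
      rw [show x + 2 * (π * t) = x + π * t + π * t by ring,
        show (x : ℝ) = x + π * t - π * t by ring]
      simp only [sub_add_cancel, Real.cos_add, Real.sin_add, Real.cos_sub, Real.sin_sub]
      ring
    have := step_unique h hd hy hy'
    show π * t = y - x - π * t
    linarith

theorem table_is_disc (h : IsTable rho) {k : ℕ} (hk : π < k * eta)
    (ha : Function.Periodic rho (2 * π / k)) (hint : GraphIntegrable rho eta) :
    ∀ x y, rho x = rho y := by
  obtain ⟨G, h1, h2, h3, h4, h5⟩ := hint
  have L : Leaves rho eta G := ⟨h, h1, h2, h3, h4, h5⟩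
  obtain ⟨m, rfl⟩ : ∃ m, k = m + 1 := by
    refine ⟨k - 1, ?_⟩
    rcases Nat.eq_zero_or_pos k with e | e
    · subst e; simp at hk; linarith [Real.pi_pos]
    · omega
  have hk' : π / (m + 1 : ℕ) < eta := by
    rw [div_lt_iff₀ (by positivity)]; linarith
  refine rho_const_of_step (b := π / (m + 1 : ℕ)) h (L.angle_const hk' ha 0).1 ?_ fun x => ?_
  · rwa [← mul_div_assoc]
  · have := (L.angle_const hk' ha x).2
    rwa [← mul_div_assoc]

theorem curve_circle (h : IsTable rho) (hc : ∀ x y, rho x = rho y) (x : ℝ) :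
    ‖curve rho x - (rho 0 : ℂ) * Complex.I‖ = rho 0 := by
  have e1 : sinPart rho x = rho 0 * (1 - Real.cos x) := by
    simp [sinPart, hc _ 0, intervalIntegral.integral_const_mul]
  have e2 : cosPart rho x = rho 0 * Real.sin x := by
    simp [cosPart, hc _ 0, intervalIntegral.integral_const_mul]
  have e : curve rho x - (rho 0 : ℂ) * Complex.I =
      (rho 0 : ℂ) * Complex.exp (((x - π / 2 : ℝ) : ℂ) * Complex.I) := by
    rw [curve_eq h.1, e1, e2]
    apply Complex.ext <;>
      simp [Complex.exp_re, Complex.exp_im, Complex.cos_ofReal_re, Complex.sin_ofReal_re,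
        Real.cos_sub_pi_div_two, Real.sin_sub_pi_div_two]
    ring
  rw [e, norm_mul, Complex.norm_exp_ofReal_mul_I, mul_one, Complex.norm_real, Real.norm_eq_abs,
    abs_of_pos (h.2.1 0)]

end Vale.Agent.P097.Sym
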