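import Vale.Agent.P097.Sym.Step

/-!
The billiard map on the leaves of a foliation by invariant graphs.
-/

noncomputable section

namespace Vale.Agent.P097.Sym

open Real Set

/-- The properties of the family of invariant graphs. -/
structure Leaves (rho : ℝ → ℝ) (eta : ℝ) (G : ℝ → ℝ → ℝ) : Prop where
  table : IsTable rho
  cont : ContinuousOn (fun p : ℝ × ℝ => G p.1 p.2) (Ioo 0 1 ×ˢ univ)
  range : ∀ t ∈ Ioo (0:ℝ) 1, ∀ x, G t x ∈ Ioo 0 π ∧ G t (x + 2 * π) = G t x
  mono : ∀ x, StrictMonoOn (fun t => G t x) (Ioo 0 1)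
  cover : ∀ x d, 0 < d → d < eta → ∃ t ∈ Ioo (0:ℝ) 1, G t x = d
  inv : ∀ t ∈ Ioo (0:ℝ) 1, ∀ x y, Step rho x (G t x) y → G t y = y - x - G t x

/-- The billiard map on the leaf `t`, in the tangent angle. -/
def leafMap (rho : ℝ → ℝ) (G : ℝ → ℝ → ℝ) (t x : ℝ) : ℝ := next rho x (G t x)

variable {rho : ℝ → ℝ} {eta : ℝ} {G : ℝ → ℝ → ℝ}

theorem Leaves.step (L : Leaves rho eta G) {t : ℝ} (ht : t ∈ Ioo (0:ℝ) 1) (x : ℝ) :
    Step rho x (G t x) (leafMap rho G t x) :=
  next_spec L.table (L.range t ht x).1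

theorem Leaves.angle_next (L : Leaves rho eta G) {t : ℝ} (ht : t ∈ Ioo (0:ℝ) 1) (x : ℝ) :
    G t (leafMap rho G t x) = leafMap rho G t x - x - G t x :=
  L.inv t ht x _ (L.step ht x)

theorem Leaves.map_add (L : Leaves rho eta G) {t : ℝ} (ht : t ∈ Ioo (0:ℝ) 1) (x : ℝ) :
    leafMap rho G t (x + 2 * π) = leafMap rho G t x + 2 * π := by
  rw [leafMap, (L.range t ht x).2, next_add_period L.table (L.range t ht x).1]; rfl

theorem Leaves.iter_add (L : Leaves rho eta G) {t : ℝ} (ht : t ∈ Ioo (0:ℝ) 1) (i : ℕ) (x : ℝ) :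
    (leafMap rho G t)^[i] (x + 2 * π) = (leafMap rho G t)^[i] x + 2 * π := by
  induction i with
  | zero => rfl
  | succ n ih => rw [Function.iterate_succ_apply', Function.iterate_succ_apply', ih, L.map_add ht]

theorem Leaves.iter_add_nat (L : Leaves rho eta G) {t : ℝ} (ht : t ∈ Ioo (0:ℝ) 1) (i j : ℕ)
    (x : ℝ) :
    (leafMap rho G t)^[i] (x + (j : ℝ) * (2 * π)) =
      (leafMap rho G t)^[i] x + (j : ℝ) * (2 * π) := by
  induction j with
  | zero => simp
  | succ n ih =>
    rw [show x + ((n + 1 : ℕ) : ℝ) * (2 * π) = x + (n : ℝ) * (2 * π) + 2 * π by push_cast; ring,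
      L.iter_add ht, ih]
    push_cast; ring

theorem Leaves.angle_add_nat (L : Leaves rho eta G) {t : ℝ} (ht : t ∈ Ioo (0:ℝ) 1) (j : ℕ)
    (x : ℝ) : G t (x + (j : ℝ) * (2 * π)) = G t x := by
  induction j with
  | zero => simp
  | succ n ih =>
    rw [show x + ((n + 1 : ℕ) : ℝ) * (2 * π) = x + (n : ℝ) * (2 * π) + 2 * π by push_cast; ring,
      (L.range t ht _).2, ih]

theorem Leaves.continuousAt_map (L : Leaves rho eta G) {t : ℝ} (ht : t ∈ Ioo (0:ℝ) 1) (x : ℝ) :
    ContinuousAt (fun p : ℝ × ℝ => leafMap rho G p.1 p.2) (t, x) := by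
  have hG : ContinuousAt (fun p : ℝ × ℝ => G p.1 p.2) (t, x) :=
    L.cont.continuousAt ((isOpen_Ioo.prod isOpen_univ).mem_nhds ⟨ht, mem_univ _⟩)
  exact ContinuousAt.comp (g := fun q : ℝ × ℝ => next rho q.1 q.2)
    (f := fun p : ℝ × ℝ => (p.2, G p.1 p.2))
    (continuousAt_next L.table (L.range t ht x).1) (continuousAt_snd.prodMk hG)

theorem Leaves.continuous_map (L : Leaves rho eta G) {t : ℝ} (ht : t ∈ Ioo (0:ℝ) 1) :
    Continuous (leafMap rho G t) :=
  continuous_iff_continuousAt.2 fun x =>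
    ContinuousAt.comp (g := fun q : ℝ × ℝ => leafMap rho G q.1 q.2) (f := fun y : ℝ => (t, y))
      (L.continuousAt_map ht x) (continuousAt_const.prodMk continuousAt_id)

theorem Leaves.continuousOn_iter (L : Leaves rho eta G) (i : ℕ) (x : ℝ) :
    ContinuousOn (fun t => (leafMap rho G t)^[i] x) (Ioo 0 1) := by
  induction i with
  | zero => exact continuousOn_const
  | succ n ih =>
    intro t ht
    refine ContinuousAt.continuousWithinAt ?_
    simp only [Function.iterate_succ_apply']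
    exact ContinuousAt.comp (g := fun q : ℝ × ℝ => leafMap rho G q.1 q.2)
      (f := fun s : ℝ => (s, (leafMap rho G s)^[n] x)) (L.continuousAt_map ht _)
      (continuousAt_id.prodMk (ih.continuousAt (isOpen_Ioo.mem_nhds ht)))

theorem Leaves.injective_map (L : Leaves rho eta G) {t : ℝ} (ht : t ∈ Ioo (0:ℝ) 1) :
    Function.Injective (leafMap rho G t) := by
  intro x y e
  have hx := L.angle_next ht x
  have hy := L.angle_next ht y
  rw [← e] at hy
  refine step_back_unique L.table (L.range t ht x).1 (L.range t ht y).1 (L.step ht x) ?_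
    (hx.symm.trans hy)
  rw [e]; exact L.step ht y

theorem Leaves.strictMono_map (L : Leaves rho eta G) {t : ℝ} (ht : t ∈ Ioo (0:ℝ) 1) :
    StrictMono (leafMap rho G t) := by
  rcases (L.continuous_map ht).strictMono_of_inj (L.injective_map ht) with h | h
  · exact h
  · have h1 := h (show (0:ℝ) < 0 + 2 * π by linarith [Real.pi_pos])
    rw [L.map_add ht] at h1
    linarith [Real.pi_pos]

theorem Leaves.iter_lt (L : Leaves rho eta G) {s t : ℝ} (hs : s ∈ Ioo (0:ℝ) 1)
    (ht : t ∈ Ioo (0:ℝ) 1) (hst : s < t) (x : ℝ) (i : ℕ) :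
    (leafMap rho G s)^[i + 1] x < (leafMap rho G t)^[i + 1] x := by
  have key : ∀ a, leafMap rho G s a < leafMap rho G t a := fun a =>
    step_mono L.table (L.range s hs a).1 (L.range t ht a).1 (L.mono a hs ht hst) (L.step hs a)
      (L.step ht a)
  induction i with
  | zero => simpa using key x
  | succ n ih =>
    rw [Function.iterate_succ_apply', Function.iterate_succ_apply' (n := n + 1)]
    exact (key _).trans (L.strictMono_map ht ih)

theorem Leaves.iter_gt (L : Leaves rho eta G) {t c : ℝ} (ht : t ∈ Ioo (0:ℝ) 1) (x : ℝ)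
    (h : ∀ i : ℕ, c < G t ((leafMap rho G t)^[i] x)) (i : ℕ) :
    x + (2 * (i + 1) : ℝ) * c < (leafMap rho G t)^[i + 1] x := by
  induction i with
  | zero =>
    have := L.angle_next ht x
    have h0 := h 0
    have h1 := h 1
    simp at *
    linarith
  | succ n ih =>
    have := L.angle_next ht ((leafMap rho G t)^[n + 1] x)
    have h0 := h (n + 1)
    have h1 := h (n + 2)
    rw [Function.iterate_succ_apply'] at h1 ⊢
    push_cast at *
    linarith

theorem Leaves.iter_lt_of (L : Leaves rho eta G) {t c : ℝ} (ht : t ∈ Ioo (0:ℝ) 1) (x : ℝ)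
    (h : ∀ y, G t y < c) (i : ℕ) :
    (leafMap rho G t)^[i + 1] x < x + (2 * (i + 1) : ℝ) * c := by
  induction i with
  | zero =>
    have := L.angle_next ht x
    have h0 := h x
    have h1 := h (leafMap rho G t x)
    simp at *
    linarith
  | succ n ih =>
    have := L.angle_next ht ((leafMap rho G t)^[n + 1] x)
    have h0 := h ((leafMap rho G t)^[n + 1] x)
    have h1 := h (leafMap rho G t ((leafMap rho G t)^[n + 1] x))
    rw [Function.iterate_succ_apply']
    push_cast at *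
    linarith

theorem Leaves.angle_reduce (L : Leaves rho eta G) {t : ℝ} (ht : t ∈ Ioo (0:ℝ) 1) (x : ℝ) :
    ∃ y ∈ Icc (0:ℝ) (2 * π), G t y = G t x := by
  have hp : Function.Periodic (G t) (2 * π) := fun y => (L.range t ht y).2
  obtain ⟨y, hy, e⟩ := hp.exists_mem_Ico₀ (by linarith [Real.pi_pos]) x
  exact ⟨y, Ico_subset_Icc_self hy, e.symm⟩

theorem Leaves.exists_high (L : Leaves rho eta G) {c : ℝ} (hc : 0 < c) (hce : c < eta) :
    ∃ t ∈ Ioo (0:ℝ) 1, ∀ x, c < G t x := by
  have h : ∃ t ∈ Ioo (0:ℝ) 1, ∀ x ∈ Icc (0:ℝ) (2 * π), c < G t x := by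
    refine isCompact_Icc.induction_on (p := fun s => ∃ t ∈ Ioo (0:ℝ) 1, ∀ x ∈ s, c < G t x)
      ⟨1 / 2, by norm_num, by simp⟩ ?_ ?_ ?_
    · rintro s s' hss ⟨t, ht, h⟩
      exact ⟨t, ht, fun x hx => h x (hss hx)⟩
    · rintro s s' ⟨t, ht, h⟩ ⟨t', ht', h'⟩
      refine ⟨max t t', ?_, ?_⟩
      · rcases max_choice t t' with e | e <;> rw [e] <;> assumption
      rintro x (hx | hx)
      · exact (h x hx).trans_le ((L.mono x).monotoneOn ht
          (by rcases max_choice t t' with e | e <;> rw [e] <;> assumption) (le_max_left _ _))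
      · exact (h' x hx).trans_le ((L.mono x).monotoneOn ht'
          (by rcases max_choice t t' with e | e <;> rw [e] <;> assumption) (le_max_right _ _))
    · intro x _
      obtain ⟨t, ht, e⟩ := L.cover x c hc hce
      obtain ⟨ht0, ht1⟩ := ht
      have hu : (t + 1) / 2 ∈ Ioo (0:ℝ) 1 := ⟨by linarith, by linarith⟩
      have hlt : c < G ((t + 1) / 2) x := e ▸ L.mono x ⟨ht0, ht1⟩ hu (by linarith)
      have hcont : Continuous (G ((t + 1) / 2)) := continuous_iff_continuousAt.2 fun y =>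
        (L.cont.continuousAt ((isOpen_Ioo.prod isOpen_univ).mem_nhds
          (show ((t + 1) / 2, y) ∈ _ from ⟨hu, mem_univ _⟩))).comp₂ continuousAt_const
          continuousAt_id
      exact ⟨{y | c < G ((t + 1) / 2) y},
        mem_nhdsWithin_of_mem_nhds ((isOpen_lt continuous_const hcont).mem_nhds hlt),
        (t + 1) / 2, hu, fun y hy => hy⟩
  obtain ⟨t, ht, h⟩ := h
  refine ⟨t, ht, fun x => ?_⟩
  obtain ⟨y, hy, e⟩ := L.angle_reduce ht x
  exact e ▸ h y hy

theorem Leaves.exists_low (L : Leaves rho eta G) {c : ℝ} (hc : 0 < c) (hce : c < eta) :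
    ∃ t ∈ Ioo (0:ℝ) 1, ∀ x, G t x < c := by
  have h : ∃ t ∈ Ioo (0:ℝ) 1, ∀ x ∈ Icc (0:ℝ) (2 * π), G t x < c := by
    refine isCompact_Icc.induction_on (p := fun s => ∃ t ∈ Ioo (0:ℝ) 1, ∀ x ∈ s, G t x < c)
      ⟨1 / 2, by norm_num, by simp⟩ ?_ ?_ ?_
    · rintro s s' hss ⟨t, ht, h⟩
      exact ⟨t, ht, fun x hx => h x (hss hx)⟩
    · rintro s s' ⟨t, ht, h⟩ ⟨t', ht', h'⟩
      refine ⟨min t t', ?_, ?_⟩
      · rcases min_choice t t' with e | e <;> rw [e] <;> assumption
      rintro x (hx | hx)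
      · exact ((L.mono x).monotoneOn (by rcases min_choice t t' with e | e <;> rw [e] <;> assumption)
          ht (min_le_left _ _)).trans_lt (h x hx)
      · exact ((L.mono x).monotoneOn (by rcases min_choice t t' with e | e <;> rw [e] <;> assumption)
          ht' (min_le_right _ _)).trans_lt (h' x hx)
    · intro x _
      obtain ⟨t, ht, e⟩ := L.cover x c hc hce
      obtain ⟨ht0, ht1⟩ := ht
      have hu : t / 2 ∈ Ioo (0:ℝ) 1 := ⟨by linarith, by linarith⟩
      have hlt : G (t / 2) x < c := e ▸ L.mono x hu ⟨ht0, ht1⟩ (by linarith)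
      have hcont : Continuous (G (t / 2)) := continuous_iff_continuousAt.2 fun y =>
        (L.cont.continuousAt ((isOpen_Ioo.prod isOpen_univ).mem_nhds
          (show (t / 2, y) ∈ _ from ⟨hu, mem_univ _⟩))).comp₂ continuousAt_const continuousAt_id
      exact ⟨{y | G (t / 2) y < c},
        mem_nhdsWithin_of_mem_nhds ((isOpen_lt hcont continuous_const).mem_nhds hlt),
        t / 2, hu, fun y hy => hy⟩
  obtain ⟨t, ht, h⟩ := h
  refine ⟨t, ht, fun x => ?_⟩
  obtain ⟨y, hy, e⟩ := L.angle_reduce ht x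
  exact e ▸ h y hy

end Vale.Agent.P097.Sym
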