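import Vale.Agent.P097.Sym.Defs

/-!
Existence, uniqueness, monotonicity and continuity of one billiard step.
-/

noncomputable section

namespace Vale.Agent.P097.Sym

open Real Set intervalIntegral

/-- `∫_0^x rho u sin u`. -/
def sinPart (rho : ℝ → ℝ) (x : ℝ) : ℝ := ∫ u in (0:ℝ)..x, rho u * Real.sin u

/-- `∫_0^x rho u cos u`. -/
def cosPart (rho : ℝ → ℝ) (x : ℝ) : ℝ := ∫ u in (0:ℝ)..x, rho u * Real.cos u

/-- Signed height of the point `y` over the line through the point `x` of direction `th`. -/
def height (rho : ℝ → ℝ) (th x y : ℝ) : ℝ :=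
  Real.cos th * (sinPart rho y - sinPart rho x) - Real.sin th * (cosPart rho y - cosPart rho x)

/-- Signed length of the projection of the chord from `x` to `y` on the direction `th`. -/
def along (rho : ℝ → ℝ) (th x y : ℝ) : ℝ :=
  Real.cos th * (cosPart rho y - cosPart rho x) + Real.sin th * (sinPart rho y - sinPart rho x)

variable {rho : ℝ → ℝ}

theorem hasDerivAt_sinPart (hc : Continuous rho) (x : ℝ) :
    HasDerivAt (sinPart rho) (rho x * Real.sin x) x :=
  ((hc.mul Real.continuous_sin).integral_hasStrictDerivAt 0 x).hasDerivAt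

theorem hasDerivAt_cosPart (hc : Continuous rho) (x : ℝ) :
    HasDerivAt (cosPart rho) (rho x * Real.cos x) x :=
  ((hc.mul Real.continuous_cos).integral_hasStrictDerivAt 0 x).hasDerivAt

theorem continuous_sinPart (hc : Continuous rho) : Continuous (sinPart rho) :=
  continuous_iff_continuousAt.2 fun x => (hasDerivAt_sinPart hc x).continuousAt

theorem continuous_cosPart (hc : Continuous rho) : Continuous (cosPart rho) :=
  continuous_iff_continuousAt.2 fun x => (hasDerivAt_cosPart hc x).continuousAt

theorem curve_eq (hc : Continuous rho) (x : ℝ) :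
    curve rho x = (cosPart rho x : ℂ) + (sinPart rho x : ℂ) * Complex.I := by
  have hg : Continuous fun u : ℝ => (rho u : ℂ) * Complex.exp ((u : ℂ) * Complex.I) := by
    fun_prop
  have hi := hg.intervalIntegrable (μ := MeasureTheory.volume) 0 x
  apply Complex.ext
  · have := (Complex.reCLM.intervalIntegral_comp_comm hi).symm
    simpa [curve, cosPart, Complex.exp_ofReal_mul_I_re, Complex.exp_ofReal_mul_I_im,
      Complex.mul_re] using this
  · have := (Complex.imCLM.intervalIntegral_comp_comm hi).symm
    simpa [curve, sinPart, Complex.exp_ofReal_mul_I_re, Complex.exp_ofReal_mul_I_im,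
      Complex.mul_im] using this

theorem parts_period (h : IsTable rho) (x : ℝ) :
    sinPart rho (x + 2 * π) = sinPart rho x ∧ cosPart rho (x + 2 * π) = cosPart rho x := by
  obtain ⟨hc, -, hper, h0⟩ := h
  have h0' : (cosPart rho (2 * π) : ℂ) + (sinPart rho (2 * π) : ℂ) * Complex.I = 0 := by
    rw [← curve_eq hc]; exact h0
  have h1 := congrArg Complex.re h0'
  have h2 := congrArg Complex.im h0'
  simp at h1 h2
  constructor
  · have key : Function.Periodic (fun u => rho u * Real.sin u) (2 * π) :=
      hper.mul Real.sin_periodic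
    have := key.intervalIntegral_add_eq 0 x
    have hs := (hc.mul Real.continuous_sin)
    have hadd := integral_add_adjacent_intervals (hs.intervalIntegrable (μ := MeasureTheory.volume) 0 x)
      (hs.intervalIntegrable x (x + 2 * π))
    simp only [zero_add, sinPart, Pi.mul_apply] at *
    linarith
  · have key : Function.Periodic (fun u => rho u * Real.cos u) (2 * π) :=
      hper.mul Real.cos_periodic
    have := key.intervalIntegral_add_eq 0 x
    have hs := (hc.mul Real.continuous_cos)
    have hadd := integral_add_adjacent_intervals (hs.intervalIntegrable (μ := MeasureTheory.volume) 0 x)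
      (hs.intervalIntegrable x (x + 2 * π))
    simp only [zero_add, cosPart, Pi.mul_apply] at *
    linarith

theorem height_period_right (h : IsTable rho) (th x y : ℝ) :
    height rho th x (y + 2 * π) = height rho th x y := by
  simp [height, (parts_period h y).1, (parts_period h y).2]

theorem height_period_left (h : IsTable rho) (th x y : ℝ) :
    height rho th (x + 2 * π) y = height rho th x y := by
  simp [height, (parts_period h x).1, (parts_period h x).2]

theorem hasDerivAt_height (hc : Continuous rho) (th x y : ℝ) :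
    HasDerivAt (height rho th x) (rho y * Real.sin (y - th)) y := by
  have := (((hasDerivAt_sinPart hc y).sub_const (sinPart rho x)).const_mul (Real.cos th)).sub
    (((hasDerivAt_cosPart hc y).sub_const (cosPart rho x)).const_mul (Real.sin th))
  refine this.congr_deriv ?_
  rw [Real.sin_sub]; ring

theorem continuous_height (hc : Continuous rho) (th x : ℝ) : Continuous (height rho th x) :=
  continuous_iff_continuousAt.2 fun y => (hasDerivAt_height hc th x y).continuousAt

theorem height_mono (h : IsTable rho) (th x : ℝ) :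
    StrictMonoOn (height rho th x) (Icc th (th + π)) := by
  refine strictMonoOn_of_deriv_pos (convex_Icc _ _) (continuous_height h.1 th x).continuousOn ?_
  intro y hy
  rw [interior_Icc] at hy
  rw [(hasDerivAt_height h.1 th x y).deriv]
  exact mul_pos (h.2.1 y) (Real.sin_pos_of_pos_of_lt_pi (by linarith [hy.1]) (by linarith [hy.2]))

theorem height_anti (h : IsTable rho) (th x : ℝ) :
    StrictAntiOn (height rho th x) (Icc (th - π) th) := by
  refine strictAntiOn_of_deriv_neg (convex_Icc _ _) (continuous_height h.1 th x).continuousOn ?_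
  intro y hy
  rw [interior_Icc] at hy
  rw [(hasDerivAt_height h.1 th x y).deriv]
  exact mul_neg_of_pos_of_neg (h.2.1 y)
    (Real.sin_neg_of_neg_of_neg_pi_lt (by linarith [hy.2]) (by linarith [hy.1]))

theorem height_self (th x : ℝ) : height rho th x x = 0 := by simp [height]

theorem height_neg_near (h : IsTable rho) {x d y : ℝ} (hd : d ∈ Ioo 0 π) (hy : x < y)
    (hy' : y ≤ x + d) : height rho (x + d) x y < 0 := by
  obtain ⟨h1, h2⟩ := hd
  have := height_anti h (x + d) x ⟨by linarith, by linarith⟩ ⟨by linarith, hy'⟩ hy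
  rwa [height_self] at this

theorem height_pos_far (h : IsTable rho) {x d y : ℝ} (hd : d ∈ Ioo 0 π) (hy : x + d + π ≤ y)
    (hy' : y < x + 2 * π) : 0 < height rho (x + d) x y := by
  obtain ⟨h1, h2⟩ := hd
  have hz : y - 2 * π < x := by linarith
  have := height_anti h (x + d) x ⟨by linarith, by linarith⟩ ⟨by linarith, by linarith⟩ hz
  rw [height_self] at this
  have h3 := height_period_right h (x + d) x (y - 2 * π)
  rw [show y - 2 * π + 2 * π = y by ring] at h3
  linarith

theorem tangent_pos (h : IsTable rho) {x y : ℝ} (hy : x < y) (hy' : y < x + 2 * π) :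
    0 < height rho x x y := by
  rcases le_total y (x + π) with hle | hle
  · have := height_mono h x x ⟨le_rfl, by linarith [Real.pi_pos]⟩ ⟨hy.le, hle⟩ hy
    rwa [height_self] at this
  · have := height_anti h x x (a := y - 2 * π) (b := x)
      ⟨by linarith, by linarith⟩ ⟨by linarith [Real.pi_pos], le_rfl⟩ (by linarith)
    have h3 := height_period_right h x x (y - 2 * π)
    rw [show y - 2 * π + 2 * π = y by ring] at h3
    rw [height_self] at this
    linarith

theorem exists_zero (h : IsTable rho) {x d : ℝ} (hd : d ∈ Ioo 0 π) :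
    ∃ y ∈ Ioo (x + d) (x + d + π), height rho (x + d) x y = 0 := by
  have hp := Real.pi_pos
  have h1 := height_neg_near h hd (x := x) (y := x + d) (by linarith [hd.1]) le_rfl
  have h2 := height_pos_far h hd (x := x) (y := x + d + π) le_rfl (by linarith [hd.2])
  exact intermediate_value_Ioo (by linarith) (continuous_height h.1 _ _).continuousOn ⟨h1, h2⟩

theorem zero_mem (h : IsTable rho) {x d y : ℝ} (hd : d ∈ Ioo 0 π) (hy : x < y)
    (hy' : y < x + 2 * π) (h0 : height rho (x + d) x y = 0) : y ∈ Ioo (x + d) (x + d + π) := by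
  constructor
  · by_contra hc
    linarith [height_neg_near h hd hy (not_lt.1 hc)]
  · by_contra hc
    linarith [height_pos_far h hd (not_lt.1 hc) hy']

theorem zero_unique (h : IsTable rho) {x d y z : ℝ} (hd : d ∈ Ioo 0 π) (hy : x < y)
    (hy' : y < x + 2 * π) (h0 : height rho (x + d) x y = 0) (hz : x < z)
    (hz' : z < x + 2 * π) (h1 : height rho (x + d) x z = 0) : y = z :=
  (height_mono h (x + d) x).injOn (Ioo_subset_Icc_self (zero_mem h hd hy hy' h0))
    (Ioo_subset_Icc_self (zero_mem h hd hz hz' h1)) (h0.trans h1.symm)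

theorem chord_eq (hc : Continuous rho) (th x y : ℝ) :
    curve rho y - curve rho x =
      ((along rho th x y : ℂ) + (height rho th x y : ℂ) * Complex.I) *
        Complex.exp ((th : ℂ) * Complex.I) := by
  have e := Real.sin_sq_add_cos_sq th
  rw [curve_eq hc, curve_eq hc]
  apply Complex.ext <;>
    simp [along, height, Complex.exp_re, Complex.exp_im, Complex.cos_ofReal_re, Complex.sin_ofReal_re]
  · linear_combination (-(cosPart rho y - cosPart rho x)) * e
  · linear_combination (-(sinPart rho y - sinPart rho x)) * e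

theorem step_iff (h : IsTable rho) {x d y : ℝ} (hd : d ∈ Ioo 0 π) :
    Step rho x d y ↔ x < y ∧ y < x + 2 * π ∧ height rho (x + d) x y = 0 := by
  constructor
  · rintro ⟨hy, hy', l, -, hl⟩
    refine ⟨hy, hy', ?_⟩
    rw [chord_eq h.1 (x + d)] at hl
    have := mul_right_cancel₀ (Complex.exp_ne_zero _) hl
    simpa using congrArg Complex.im this
  · rintro ⟨hy, hy', h0⟩
    refine ⟨hy, hy', along rho (x + d) x y, ?_, ?_⟩
    · have hh := tangent_pos h hy hy'
      have hs := Real.sin_pos_of_pos_of_lt_pi hd.1 hd.2
      have e : height rho x x y =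
          along rho (x + d) x y * Real.sin d + height rho (x + d) x y * Real.cos d := by
        simp only [height, along, Real.sin_add, Real.cos_add]
        linear_combination (-(Real.cos x * (sinPart rho y - sinPart rho x)
          - Real.sin x * (cosPart rho y - cosPart rho x))) * Real.sin_sq_add_cos_sq d
      rw [h0, zero_mul, add_zero] at e
      rw [e] at hh
      exact pos_of_mul_pos_left hh hs.le
    · rw [chord_eq h.1 (x + d), h0]; simp

theorem step_exists (h : IsTable rho) {x d : ℝ} (hd : d ∈ Ioo 0 π) : ∃ y, Step rho x d y := by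
  obtain ⟨y, hy, h0⟩ := exists_zero h hd (x := x)
  exact ⟨y, (step_iff h hd).2 ⟨by linarith [hy.1, hd.1], by linarith [hy.2, hd.2], h0⟩⟩

theorem step_unique (h : IsTable rho) {x d y z : ℝ} (hd : d ∈ Ioo 0 π) (hy : Step rho x d y)
    (hz : Step rho x d z) : y = z := by
  obtain ⟨a, b, c⟩ := (step_iff h hd).1 hy
  obtain ⟨a', b', c'⟩ := (step_iff h hd).1 hz
  exact zero_unique h hd a b c a' b' c'

theorem step_mem (h : IsTable rho) {x d y : ℝ} (hd : d ∈ Ioo 0 π) (hy : Step rho x d y) :
    y ∈ Ioo (x + d) (x + d + π) := by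
  obtain ⟨a, b, c⟩ := (step_iff h hd).1 hy
  exact zero_mem h hd a b c

theorem step_mono (h : IsTable rho) {x d d' y y' : ℝ} (hd : d ∈ Ioo 0 π) (hd' : d' ∈ Ioo 0 π)
    (hlt : d < d') (hy : Step rho x d y) (hy' : Step rho x d' y') : y < y' := by
  obtain ⟨a, b, c⟩ := (step_iff h hd).1 hy
  have hneg : height rho (x + d') x y < 0 := by
    obtain ⟨-, -, l, hl, e⟩ := hy
    rw [chord_eq h.1 (x + d')] at e
    have e' : ((along rho (x + d') x y : ℂ) + (height rho (x + d') x y : ℂ) * Complex.I) =
        (l : ℂ) * Complex.exp (((d - d' : ℝ) : ℂ) * Complex.I) := by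
      apply mul_right_cancel₀ (Complex.exp_ne_zero (((x + d' : ℝ) : ℂ) * Complex.I))
      rw [e, mul_assoc, ← Complex.exp_add]
      congr 2; push_cast; ring
    have := congrArg Complex.im e'
    rw [Complex.im_ofReal_mul, Complex.exp_ofReal_mul_I_im] at this
    simp at this
    rw [this]
    have : Real.sin (d - d') < 0 :=
      Real.sin_neg_of_neg_of_neg_pi_lt (by linarith) (by linarith [hd.1, hd'.2])
    nlinarith
  have m := step_mem h hd' hy'
  obtain ⟨a', b', c'⟩ := (step_iff h hd').1 hy'
  rcases le_or_gt y (x + d') with hle | hgt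
  · linarith [m.1]
  rcases le_or_gt (x + d' + π) y with hle | hlt'
  · linarith [height_pos_far h hd' hle b]
  exact ((height_mono h (x + d') x).lt_iff_lt ⟨hgt.le, hlt'.le⟩ (Ioo_subset_Icc_self m)).1
    (by rw [c']; exact hneg)

theorem step_angle (h : IsTable rho) {x d y : ℝ} (hd : d ∈ Ioo 0 π) (hy : Step rho x d y) :
    y - x - d ∈ Ioo 0 π := by
  have := step_mem h hd hy
  exact ⟨by linarith [this.1], by linarith [this.2]⟩

theorem step_back_unique (h : IsTable rho) {x x' d d' y : ℝ} (hd : d ∈ Ioo 0 π)
    (hd' : d' ∈ Ioo 0 π) (hy : Step rho x d y) (hy' : Step rho x' d' y)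
    (he : y - x - d = y - x' - d') : x = x' := by
  have hm := step_angle h hd hy
  obtain ⟨a, b, c⟩ := (step_iff h hd).1 hy
  obtain ⟨a', b', c'⟩ := (step_iff h hd').1 hy'
  have hth : x + d = x' + d' := by linarith
  have key : ∀ z, height rho (x + d) z y = 0 →
      height rho (y + (π - (y - x - d))) y (z + 2 * π) = 0 := by
    intro z hz
    rw [show y + (π - (y - x - d)) = x + d + π by ring, height_period_right h]
    simp only [height, Real.cos_add_pi, Real.sin_add_pi] at hz ⊢
    linarith
  have := zero_unique h (x := y) (d := π - (y - x - d)) ⟨by linarith [hm.2], by linarith [hm.1]⟩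
    (y := x + 2 * π) (z := x' + 2 * π) (by linarith) (by linarith) (key x c) (by linarith)
    (by linarith) (key x' (by rw [hth]; exact c'))
  linarith

/-- The next impact. -/
def next (rho : ℝ → ℝ) (x d : ℝ) : ℝ := Classical.epsilon fun y => Step rho x d y

theorem next_spec (h : IsTable rho) {x d : ℝ} (hd : d ∈ Ioo 0 π) :
    Step rho x d (next rho x d) :=
  Classical.epsilon_spec (step_exists h hd)

theorem next_eq (h : IsTable rho) {x d y : ℝ} (hd : d ∈ Ioo 0 π) (hy : Step rho x d y) :
    next rho x d = y :=
  step_unique h hd (next_spec h hd) hy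

theorem next_add_period (h : IsTable rho) {x d : ℝ} (hd : d ∈ Ioo 0 π) :
    next rho (x + 2 * π) d = next rho x d + 2 * π := by
  obtain ⟨a, b, c⟩ := (step_iff h hd).1 (next_spec h hd (x := x))
  refine next_eq h hd ((step_iff h hd).2 ⟨by linarith, by linarith, ?_⟩)
  rw [height_period_right h, height_period_left h, show x + 2 * π + d = x + d + 2 * π by ring]
  simpa only [height, Real.cos_add_two_pi, Real.sin_add_two_pi] using c

theorem height_shift (h : IsTable rho) {a : ℝ} (ha : Function.Periodic rho a) (th x y : ℝ) :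
    height rho (th + a) (x + a) (y + a) = height rho th x y := by
  have hf : ∀ z, HasDerivAt (fun z => height rho (th + a) (x + a) (z + a)
      - height rho th x z) 0 z := by
    intro z
    refine (((hasDerivAt_height h.1 (th + a) (x + a) (z + a)).comp_add_const z a).sub
      (hasDerivAt_height h.1 th x z)).congr_deriv ?_
    rw [ha z, show z + a - (th + a) = z - th by ring]; ring
  have := is_const_of_deriv_eq_zero (fun z => (hf z).differentiableAt)
    (fun z => (hf z).deriv) y x
  simp only [height_self, sub_zero] at this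
  linarith

theorem next_add_symm (h : IsTable rho) {a x d : ℝ} (ha : Function.Periodic rho a)
    (hd : d ∈ Ioo 0 π) : next rho (x + a) d = next rho x d + a := by
  obtain ⟨u, v, w⟩ := (step_iff h hd).1 (next_spec h hd (x := x))
  refine next_eq h hd ((step_iff h hd).2 ⟨by linarith, by linarith, ?_⟩)
  rw [show x + a + d = x + d + a by ring, height_shift h ha]
  exact w

theorem continuous_height_point (hc : Continuous rho) (z : ℝ) :
    Continuous fun p : ℝ × ℝ => height rho (p.1 + p.2) p.1 z := by
  have := continuous_sinPart hc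
  have := continuous_cosPart hc
  unfold height
  fun_prop

theorem continuousAt_next (h : IsTable rho) {x d : ℝ} (hd : d ∈ Ioo 0 π) :
    ContinuousAt (fun p : ℝ × ℝ => next rho p.1 p.2) (x, d) := by
  rw [Metric.continuousAt_iff']
  intro e he
  have hsp := next_spec h hd (x := x)
  have hm := step_mem h hd hsp
  obtain ⟨-, -, h0⟩ := (step_iff h hd).1 hsp
  generalize hy : next rho x d = y at hsp hm h0
  obtain ⟨h1, h2⟩ := hm
  obtain ⟨r, hr, hre, hr1, hr2⟩ : ∃ r : ℝ, 0 < r ∧ r < e ∧ x + d < y - r ∧ y + r < x + d + π := by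
    have m1 : 0 < min (y - (x + d)) (x + d + π - y) := lt_min (by linarith) (by linarith)
    have m2 : 0 < min e (min (y - (x + d)) (x + d + π - y)) := lt_min he m1
    have l1 := min_le_left e (min (y - (x + d)) (x + d + π - y))
    have l2 := min_le_right e (min (y - (x + d)) (x + d + π - y))
    have l3 := min_le_left (y - (x + d)) (x + d + π - y)
    have l4 := min_le_right (y - (x + d)) (x + d + π - y)
    exact ⟨min e (min (y - (x + d)) (x + d + π - y)) / 2, by linarith, by linarith, by linarith,
      by linarith⟩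
  have hy1 : y ∈ Icc (x + d) (x + d + π) := ⟨h1.le, h2.le⟩
  have hlo : height rho (x + d) x (y - r) < 0 := by
    rw [← h0]
    exact height_mono h _ _ ⟨hr1.le, by linarith⟩ hy1 (by linarith)
  have hhi : 0 < height rho (x + d) x (y + r) := by
    rw [← h0]
    exact height_mono h _ _ hy1 ⟨by linarith, hr2.le⟩ (by linarith)
  have e1 : ∀ᶠ p : ℝ × ℝ in nhds (x, d), height rho (p.1 + p.2) p.1 (y - r) < 0 :=
    (isOpen_lt (continuous_height_point h.1 (y - r)) continuous_const).eventually_mem hlo
  have e2 : ∀ᶠ p : ℝ × ℝ in nhds (x, d), 0 < height rho (p.1 + p.2) p.1 (y + r) :=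
    (isOpen_lt continuous_const (continuous_height_point h.1 (y + r))).eventually_mem hhi
  have e3 : ∀ᶠ p : ℝ × ℝ in nhds (x, d), p.2 ∈ Ioo 0 π :=
    (isOpen_Ioo.preimage continuous_snd).eventually_mem (x := (x, d)) hd
  have hsum : Continuous fun p : ℝ × ℝ => p.1 + p.2 := continuous_fst.add continuous_snd
  have e4 : ∀ᶠ p : ℝ × ℝ in nhds (x, d), p.1 + p.2 ∈ Ioo (y + r - π) (y - r) :=
    (isOpen_Ioo.preimage hsum).eventually_mem (x := (x, d)) ⟨by linarith, hr1⟩
  filter_upwards [e1, e2, e3, e4] with p p1 p2 p3 p4
  have qs := next_spec h p3 (x := p.1)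
  obtain ⟨-, -, q0⟩ := (step_iff h p3).1 qs
  have qm := Ioo_subset_Icc_self (step_mem h p3 qs)
  have hm' := height_mono h (p.1 + p.2) p.1
  obtain ⟨p4a, p4b⟩ := p4
  have l1 : y - r < next rho p.1 p.2 :=
    (hm'.lt_iff_lt ⟨p4b.le, by linarith⟩ qm).1 (by rw [q0]; exact p1)
  have l2 : next rho p.1 p.2 < y + r :=
    (hm'.lt_iff_lt qm ⟨by linarith, by linarith⟩).1 (by rw [q0]; exact p2)
  rw [Real.dist_eq, abs_lt]
  constructor <;> linarith

end Vale.Agent.P097.Sym
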